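import Vale.Agent.P024.ALL.Goal

/-!
Uchida's conjecture for arbitrary Galois extensions `E₁`.
-/

namespace Vale.Agent.P024.ALL

open Vale.Agent.P024
open scoped Topology

universe u v

theorem solvablyClosed_of_isAlgClosed (E : Type*) [Field E] [IsAlgClosed E] :
    SolvablyClosed E := by
  intro M _ _
  rw [eq_bot_iff]
  intro x _
  obtain ⟨y, hy⟩ := IsAlgClosed.algebraMap_bijective_of_isIntegral (k := E)
    (K := AlgebraicClosure E) |>.2 x
  exact IntermediateField.mem_bot.2 ⟨y, hy⟩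

/-- Uchida's conjecture with an arbitrary Galois extension `E₁` of `F₁`. -/
theorem q1_any {F₁ F₂ : Type*} {E₁ : Type u} {E₂ : Type v}
    [Field F₁] [NumberField F₁] [Field E₁] [Algebra F₁ E₁]
    [IsGalois F₁ E₁] [Field F₂] [NumberField F₂] [Field E₂] [Algebra F₂ E₂] [IsGalois F₂ E₂]
    (hE₂ : SolvablyClosed E₂) (α : (E₁ ≃ₐ[F₁] E₁) →* (E₂ ≃ₐ[F₂] E₂))
    (hα : Continuous α) (hopen : IsOpen (Set.range α)) :
    ∃! j : E₂ →+* E₁, ∀ (g : E₁ ≃ₐ[F₁] E₁) (x : E₂), g (j x) = j ((α g) x) := by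
  have hc₁ : CharZero E₁ := charZero_of_injective_algebraMap (algebraMap F₁ E₁).injective
  have hcF : CharZero F₁ := inferInstance
  have halg : Algebra.IsAlgebraic F₁ (AlgebraicClosure E₁) :=
    Algebra.IsAlgebraic.trans F₁ E₁ (AlgebraicClosure E₁)
  have hnorm : Normal F₁ (AlgebraicClosure E₁) := ⟨fun x => IsAlgClosed.splits _⟩
  have hgal : IsGalois F₁ (AlgebraicClosure E₁) := ⟨⟩
  have hgalE : IsGalois E₁ (AlgebraicClosure E₁) := inferInstance
  set r : (AlgebraicClosure E₁ ≃ₐ[F₁] AlgebraicClosure E₁) →* (E₁ ≃ₐ[F₁] E₁) :=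
    AlgEquiv.restrictNormalHom E₁ with hr
  have hrc : ∀ g x, algebraMap E₁ (AlgebraicClosure E₁) (r g x) =
      g (algebraMap E₁ (AlgebraicClosure E₁) x) := fun g x =>
    AlgEquiv.restrictNormal_commutes g E₁ x
  have hcont : Continuous r :=
    H358.Red.continuous_of_res (algebraMap E₁ (AlgebraicClosure E₁)) r hrc
  have hsurj : Function.Surjective r := AlgEquiv.restrictNormalHom_surjective _
  have hopen' : IsOpen (Set.range (α.comp r)) := by
    rw [MonoidHom.coe_comp, hsurj.range_comp]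
    exact hopen
  obtain ⟨j, hj, huniq⟩ := q1 (solvablyClosed_of_isAlgClosed (AlgebraicClosure E₁)) hE₂
    (α.comp r) (hα.comp hcont) hopen'
  have hmem : ∀ x : E₂, ∃ y : E₁, algebraMap E₁ (AlgebraicClosure E₁) y = j x := by
    intro x
    have h1 : ∀ g : AlgebraicClosure E₁ ≃ₐ[E₁] AlgebraicClosure E₁, g (j x) = j x := by
      intro g
      have h2 := hj (g.restrictScalars F₁) x
      have h3 : r (g.restrictScalars F₁) = 1 := by
        ext y
        apply (algebraMap E₁ (AlgebraicClosure E₁)).injective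
        rw [hrc]
        exact g.commutes y
      rw [MonoidHom.comp_apply, h3, map_one] at h2
      exact h2
    have h4 := (InfiniteGalois.mem_bot_iff_fixed (k := E₁) (K := AlgebraicClosure E₁) (j x)).2 h1
    exact IntermediateField.mem_bot.1 h4
  let e : E₁ ≃+* (algebraMap E₁ (AlgebraicClosure E₁)).range :=
    RingEquiv.ofBijective (algebraMap E₁ (AlgebraicClosure E₁)).rangeRestrict
      ⟨RingHom.injective _, (algebraMap E₁ (AlgebraicClosure E₁)).rangeRestrict_surjective⟩
  let j₀ : E₂ →+* E₁ := (e.symm : (algebraMap E₁ (AlgebraicClosure E₁)).range →+* E₁).comp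
    (j.codRestrict (algebraMap E₁ (AlgebraicClosure E₁)).range hmem)
  have hj₀ : ∀ x, algebraMap E₁ (AlgebraicClosure E₁) (j₀ x) = j x := by
    intro x
    have h1 : e (j₀ x) = j.codRestrict (algebraMap E₁ (AlgebraicClosure E₁)).range hmem x :=
      e.apply_symm_apply _
    exact congrArg Subtype.val h1
  refine ⟨j₀, ?_, ?_⟩
  · intro g x
    obtain ⟨g', rfl⟩ := hsurj g
    apply (algebraMap E₁ (AlgebraicClosure E₁)).injective
    rw [hrc, hj₀, hj₀, hj]
    rfl
  · intro j' hj'
    have h1 : (algebraMap E₁ (AlgebraicClosure E₁)).comp j' = j := by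
      refine huniq _ ?_
      intro g x
      show g (algebraMap E₁ (AlgebraicClosure E₁) (j' x)) = _
      rw [← hrc, hj']
      rfl
    ext x
    apply (algebraMap E₁ (AlgebraicClosure E₁)).injective
    rw [hj₀, ← h1]
    rfl

end Vale.Agent.P024.ALL
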