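import Vale.Agent.P024.ALL.Red
import Vale.Agent.P024.Bdl.B2
import Vale.Agent.P024.Bdl.B1

/-!
All number fields: the conjecture from the goal.
-/

namespace Vale.Agent.P024.ALL

open Vale.Agent.P024
open scoped Topology

universe u v

theorem q1_of_goal (hM : PropGOAL.{u, v}) {F₁ F₂ : Type*} {E₁ : Type u} {E₂ : Type v}
    [Field F₁] [NumberField F₁] [Field E₁] [Algebra F₁ E₁]
    [IsGalois F₁ E₁] [Field F₂] [NumberField F₂] [Field E₂] [Algebra F₂ E₂] [IsGalois F₂ E₂]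
    (hE₁ : SolvablyClosed E₁) (hE₂ : SolvablyClosed E₂) (α : (E₁ ≃ₐ[F₁] E₁) →* (E₂ ≃ₐ[F₂] E₂))
    (hα : Continuous α) (hopen : IsOpen (Set.range α)) :
    ∃! j : E₂ →+* E₁, ∀ (g : E₁ ≃ₐ[F₁] E₁) (x : E₂), g (j x) = j ((α g) x) := by
  have : CharZero E₁ := charZero_of_injective_algebraMap (algebraMap F₁ E₁).injective
  have : CharZero E₂ := charZero_of_injective_algebraMap (algebraMap F₂ E₂).injective
  have hex : ∃ j : E₂ →+* E₁, ∀ (g : E₁ ≃ₐ[F₁] E₁) (x : E₂), g (j x) = j ((α g) x) := by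
    refine induced_of_ker_A hE₁ hE₂ α hα Nat.prime_three (by norm_num) ⊤ isOpen_univ ∅
      Set.finite_empty ?_
    intro g _ p a b hp _ _ ha hb hb1
    obtain ⟨ξ, hξ⟩ := hE₂.exists_primitiveRoot p hp.pos
    have h1 := compat_of_goal hM hE₁ hE₂ α hα hopen g p a hp.pos ha ξ hξ.pow_eq_one
    rw [hb ξ hξ.pow_eq_one] at h1
    have h2 : b ≡ a [MOD p] := (pow_eq_pow_iff_modEq' hξ hp.pos).1 h1
    exact (h2.symm.pow _).trans hb1
  obtain ⟨j, hj⟩ := hex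
  obtain ⟨ζ, hζ⟩ := hE₁.exists_primitiveRoot 3 (by norm_num)
  exact ⟨j, hj, fun j' hj' => unique_of_induces α Nat.prime_three
    (hE₁.exists_root 3 (by norm_num)) (hE₂.exists_root 3 (by norm_num)) hζ j' j hj' hj⟩

end Vale.Agent.P024.ALL
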