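import Vale.Agent.P024.M4.Spec

/-!
Literal statements of the blocks for all number fields (note 20992).
-/

namespace Vale.Agent.P024.ALL

open scoped NumberField
open IsDedekindDomain NumberField Vale.Agent.P024 Vale.Agent.P024.M4

/-- `a` maps the decomposition group of a valuation ring above `v` into the decomposition group of
a valuation ring above the prime number `r₂`. -/
def Hit {E₁ E₂ : Type*} [Field E₁] [CharZero E₁] [Field E₂] [CharZero E₂]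
    {F : IntermediateField ℚ E₁} [NumberField F] (a : (E₁ ≃ₐ[F] E₁) →* (E₂ ≃ₐ[ℚ] E₂))
    (v : HeightOneSpectrum (𝓞 F)) (r₂ : ℕ) : Prop :=
  ∃ (O : ValuationSubring E₁) (O₂ : ValuationSubring E₂), O ≠ ⊤ ∧ O₂ ≠ ⊤ ∧ IsCenter O v ∧
    (∀ s : E₁ ≃ₐ[F] E₁, Stab O s → Stab O₂ (a s)) ∧ (r₂ : E₂) ∈ O₂.nonunits

/-- `r₂` splits completely in the fixed field of `V`. -/
def Splits {E : Type*} [Field E] [CharZero E] (V : Subgroup (E ≃ₐ[ℚ] E)) (r₂ : ℕ) : Prop :=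
  ∀ O₂ : ValuationSubring E, O₂ ≠ ⊤ → (r₂ : E) ∈ O₂.nonunits → ∀ s, Stab O₂ s → s ∈ V

section

/-- (A) -/
def PropA.{u, v} : Prop := ∀ (E₁ : Type u) (E₂ : Type v) [Field E₁] [CharZero E₁]
  [IsAlgClosed E₁] [Algebra.IsAlgebraic ℚ E₁] [Field E₂] [CharZero E₂] [IsGalois ℚ E₂],
  SolvablyClosed E₂ → ∀ (F : IntermediateField ℚ E₁) [NumberField F]
  (a : (E₁ ≃ₐ[F] E₁) →* (E₂ ≃ₐ[ℚ] E₂)), Continuous a → IsOpen (Set.range a) →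
  ∀ (v : HeightOneSpectrum (𝓞 F)) (r₂ : ℕ), r₂.Prime → Hit a v r₂ → ∀ s : ℕ, s.Prime →
  ∃ m : ℕ, ∀ (l : ℕ) [Fact l.Prime], l ≠ 2 → l ≠ r₂ → s ∣ l - 1 → v ∈ Alive a l →
    ∃ y : ZMod l, ((Ideal.absNorm v.asIdeal : ℕ) : ZMod l) = (r₂ : ZMod l) ^ m * y ^ s

/-- (TH) -/
def PropTH.{u} : Prop := ∀ (E : Type u) [Field E] [CharZero E] [IsGalois ℚ E],
  SolvablyClosed E → ∀ C : Finset (E ≃ₐ[ℚ] E), (∀ c ∈ C, c ≠ 1) →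
  ∃ V : Subgroup (E ≃ₐ[ℚ] E), ∃ _ : V.Normal, IsOpen (V : Set (E ≃ₐ[ℚ] E)) ∧
  ∃ B : Set ℕ, B.Finite ∧ ∀ (p : ℕ) [Fact p.Prime], p ∉ B → ∀ (r₂ : ℕ), r₂.Prime → r₂ ≠ p →
  ∀ O₂ : ValuationSubring E, O₂ ≠ ⊤ → (r₂ : E) ∈ O₂.nonunits → (∀ s, Stab O₂ s → s ∈ V) →
  ∀ c ∈ C, ∃ θ : V →* ℤ_[p]ˣ, Continuous θ ∧ (∀ y : V, Stab O₂ (y : E ≃ₐ[ℚ] E) → θ y = 1) ∧
    ¬ ∃ m : ℕ, 0 < m ∧ ∀ y : V,
      act (MonoidAlgebra.of ℤ _ (c : (E ≃ₐ[ℚ] E) ⧸ V) - 1) θ y ^ m = 1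

/-- (B) -/
def PropB.{u, v} : Prop := ∀ (E₁ : Type u) (E₂ : Type v) [Field E₁] [CharZero E₁]
  [IsAlgClosed E₁] [Algebra.IsAlgebraic ℚ E₁] [Field E₂] [CharZero E₂] [IsGalois ℚ E₂],
  SolvablyClosed E₂ → ∀ (F : IntermediateField ℚ E₁) [NumberField F]
  (a : (E₁ ≃ₐ[F] E₁) →* (E₂ ≃ₐ[ℚ] E₂)), Continuous a → IsOpen (Set.range a) →
  (∀ g b, Rel a g b → g ∈ F.fixingSubgroup) →
  ∃ V : Subgroup (E₂ ≃ₐ[ℚ] E₂), V.Normal ∧ IsOpen (V : Set (E₂ ≃ₐ[ℚ] E₂)) ∧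
  ∃ B : Set ℕ, B.Finite ∧ ∀ r₂ : ℕ, r₂.Prime → r₂ ∉ B → Splits V r₂ → {v | Hit a v r₂}.Finite

/-- (C) -/
def PropC : Prop := ∀ (N : ℕ), 0 < N → ∀ (n : ℕ) (r f r₂ : Fin n → ℕ),
  (∀ i, (r i).Prime) → (∀ i, (r₂ i).Prime) → (∀ i, r i ≠ r₂ i) → (∀ i, 0 < f i) →
  ∃ s : Fin n → ℕ, (∀ i, (s i).Prime) ∧ ∀ (m : Fin n → ℕ) (B : Set ℕ), B.Finite →
  ∃ l : ℕ, l.Prime ∧ l ∉ B ∧ N ∣ l - 1 ∧ (∀ i, s i ∣ l - 1) ∧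
    ∀ i, ¬ ∃ y : ZMod l, (r i : ZMod l) ^ (f i) = (r₂ i : ZMod l) ^ (m i) * y ^ (s i)

/-- (D1), Lemma R -/
def PropD1.{u} : Prop := ∀ (F L : Type u) [Field F] [NumberField F] [Field L] [NumberField L]
  [Algebra F L] [IsGalois F L] (l : ℕ), l.Prime → ∃ M : ℕ, 0 < M ∧
  ∀ (k n : ℕ), 2 * Module.finrank ℚ F < n → ∀ (y : Fin n → L) (t : (L ≃ₐ[F] L) → ℤ),
  (∀ i, y i ≠ 0) → (∀ σ τ, ((l ^ k : ℕ) : ℤ) ∣ t (σ * τ) - t σ * t τ) →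
  ((l ^ k : ℕ) : ℤ) ∣ t 1 - 1 →
  (∀ i σ, ∃ z : L, z ≠ 0 ∧ σ (y i) = y i ^ t σ * z ^ (l ^ k)) →
  (∀ i, ∀ V : HeightOneSpectrum (𝓞 L), (l : 𝓞 L) ∉ V.asIdeal →
    ∃ j : ℤ, V.valuation L (y i) = WithZero.exp (((l ^ k : ℕ) : ℤ) * j)) →
  ∃ c : Fin n → ℤ, (∃ i, ¬ (l : ℤ) ∣ c i) ∧ ∃ z : L, z ≠ 0 ∧ (∏ i, y i ^ c i) ^ M = z ^ (l ^ k)

/-- (D) -/
def PropD.{u, v} : Prop := ∀ (E₁ : Type u) (E₂ : Type v) [Field E₁] [CharZero E₁]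
  [IsAlgClosed E₁] [Algebra.IsAlgebraic ℚ E₁] [Field E₂] [CharZero E₂] [IsGalois ℚ E₂],
  SolvablyClosed E₂ → ∀ (F : IntermediateField ℚ E₁) [NumberField F]
  (a : (E₁ ≃ₐ[F] E₁) →* (E₂ ≃ₐ[ℚ] E₂)), Continuous a → IsOpen (Set.range a) →
  ∀ (l : ℕ) [Fact l.Prime], l ≠ 2 → (∃ m : ℕ, 0 < m ∧ ∀ g, eta a l g ^ m = 1) →
  ∀ T : Finset ℕ, (∀ r ∈ T, r.Prime ∧ r ≠ l) → 2 * Module.finrank ℚ F < T.card →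
  ∃ r₂ ∈ T, ∃ v ∈ Alive a l, Hit a v r₂

/-- (F) -/
def PropF.{u, v} : Prop := ∀ (E₁ : Type u) (E₂ : Type v) [Field E₁] [CharZero E₁]
  [IsAlgClosed E₁] [Algebra.IsAlgebraic ℚ E₁] [Field E₂] [CharZero E₂] [IsGalois ℚ E₂],
  SolvablyClosed E₂ → ∀ (F : IntermediateField ℚ E₁) [NumberField F]
  (a : (E₁ ≃ₐ[F] E₁) →* (E₂ ≃ₐ[ℚ] E₂)), Continuous a → IsOpen (Set.range a) →
  (∃ V : Subgroup (E₂ ≃ₐ[ℚ] E₂), V.Normal ∧ IsOpen (V : Set (E₂ ≃ₐ[ℚ] E₂)) ∧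
    ∃ B : Set ℕ, B.Finite ∧ ∀ r : ℕ, r.Prime → r ∉ B → Splits V r →
    ∃ v : HeightOneSpectrum (𝓞 F), (r : 𝓞 F) ∈ v.asIdeal ∧ Hit a v r) →
  ∃ j : E₂ →+* E₁, ∀ (g : E₁ ≃ₐ[F] E₁) (x : E₂), g (j x) = j ((a g) x)

/-- The goal for algebraically closed `E₁`. -/
def PropGOAL.{u, v} : Prop := ∀ (E₁ : Type u) (E₂ : Type v) [Field E₁] [CharZero E₁]
  [IsAlgClosed E₁] [Algebra.IsAlgebraic ℚ E₁] [Field E₂] [CharZero E₂] [IsGalois ℚ E₂],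
  SolvablyClosed E₂ → ∀ (F : IntermediateField ℚ E₁) [NumberField F]
  (a : (E₁ ≃ₐ[F] E₁) →* (E₂ ≃ₐ[ℚ] E₂)), Continuous a → IsOpen (Set.range a) →
  ∃ j : E₂ →+* E₁, ∀ (g : E₁ ≃ₐ[F] E₁) (x : E₂), g (j x) = j ((a g) x)

end

end Vale.Agent.P024.ALL
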