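import Vale.Agent.P024.ALL.Goal2
import Vale.Agent.P024.H558.ALL.TH

/-!
Uchida's conjecture for all number fields.
-/

namespace Vale.Agent.P024.ALL

open Vale.Agent.P024

universe u v

theorem propGOAL : PropGOAL.{u, v} := goal_of_TH H558.ALL.propTH

theorem q1 {F₁ F₂ : Type*} {E₁ : Type u} {E₂ : Type v}
    [Field F₁] [NumberField F₁] [Field E₁] [Algebra F₁ E₁]
    [IsGalois F₁ E₁] [Field F₂] [NumberField F₂] [Field E₂] [Algebra F₂ E₂] [IsGalois F₂ E₂]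
    (hE₁ : SolvablyClosed E₁) (hE₂ : SolvablyClosed E₂) (α : (E₁ ≃ₐ[F₁] E₁) →* (E₂ ≃ₐ[F₂] E₂))
    (hα : Continuous α) (hopen : IsOpen (Set.range α)) :
    ∃! j : E₂ →+* E₁, ∀ (g : E₁ ≃ₐ[F₁] E₁) (x : E₂), g (j x) = j ((α g) x) :=
  q1_of_goal propGOAL hE₁ hE₂ α hα hopen

end Vale.Agent.P024.ALL
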