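import Vale.Agent.P024.ALL.Fin
import Vale.Agent.P024.H586.PropA
import Vale.Agent.P024.H116.PropC
import Vale.Agent.P024.H566.ALL.B
import Vale.Agent.P024.H644.D3
import Vale.Agent.P024.H644.T10

/-!
All number fields: the goal from the last blocks.
-/

namespace Vale.Agent.P024.ALL

universe u v

theorem goal_of3 (hTH : PropTH.{v}) (hD1 : PropD1.{u}) (hF : PropF.{u, v}) : PropGOAL.{u, v} :=
  goal_of H586.propA (H566.AllB.propB_of_TH hTH) H116.propC (H644D.propD hD1) T3.propT3 hF

end Vale.Agent.P024.ALL
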