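import Vale.Agent.P024.ALL.Goal1
import Vale.Agent.P024.H903.D1b
import Vale.Agent.P024.ALL.H95.F2

/-!
All number fields: the goal from the last block.
-/

namespace Vale.Agent.P024.ALL

universe u v

theorem goal_of_TH (hTH : PropTH.{v}) : PropGOAL.{u, v} :=
  goal_of3 hTH H903.propD1 H95.propF

end Vale.Agent.P024.ALL
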