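import Vale.Agent.P024.ALL.Spec
import Vale.Agent.P024.M4.Asm6

/-!
All number fields: the matched primes, the induction, and the goal from the blocks.
-/

namespace Vale.Agent.P024.ALL

open scoped NumberField
open IsDedekindDomain NumberField Vale.Agent.P024 Vale.Agent.P024.M4

universe u v

/-- The matched primes, for a maximal homomorphism. -/
theorem matched (hA : PropA.{u, v}) (hB : PropB.{u, v}) (hC : PropC) (hD : PropD.{u, v})
    (hT3 : PropT3.{v}) {E₁ : Type u} {E₂ : Type v} [Field E₁] [CharZero E₁] [IsAlgClosed E₁]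
    [Algebra.IsAlgebraic ℚ E₁] [Field E₂] [CharZero E₂] [IsGalois ℚ E₂]
    (hE₂ : SolvablyClosed E₂) (F : IntermediateField ℚ E₁) [NumberField F]
    (a : (E₁ ≃ₐ[F] E₁) →* (E₂ ≃ₐ[ℚ] E₂)) (ha : Continuous a) (hopen : IsOpen (Set.range a))
    (hmax : ∀ g b, Rel a g b → g ∈ F.fixingSubgroup) :
    ∃ V : Subgroup (E₂ ≃ₐ[ℚ] E₂), V.Normal ∧ IsOpen (V : Set (E₂ ≃ₐ[ℚ] E₂)) ∧
      ∃ B : Set ℕ, B.Finite ∧ ∀ r : ℕ, r.Prime → r ∉ B → Splits V r →
      ∃ v : HeightOneSpectrum (𝓞 F), (r : 𝓞 F) ∈ v.asIdeal ∧ Hit a v r := by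
  classical
  obtain ⟨V, hVn, hVo, B, hBf, hfin⟩ := hB E₁ E₂ hE₂ F a ha hopen hmax
  refine ⟨V, hVn, hVo, ?_⟩
  let Fail : Set ℕ := {r | r.Prime ∧ r ∉ B ∧ Splits V r ∧
    ¬ ∃ v : HeightOneSpectrum (𝓞 F), (r : 𝓞 F) ∈ v.asIdeal ∧ Hit a v r}
  suffices hF : Fail.Finite by
    refine ⟨B ∪ Fail, hBf.union hF, ?_⟩
    intro r hr hrB hs
    by_contra hcon
    exact hrB (Or.inr ⟨hr, fun h => hrB (Or.inl h), hs, hcon⟩)
  by_contra hinf
  obtain ⟨T, hT, hTc⟩ := Set.Infinite.exists_subset_card_eq hinf (2 * Module.finrank ℚ F + 1)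
  -- the pairs
  let P : Set (HeightOneSpectrum (𝓞 F) × ℕ) := {x | x.2 ∈ T ∧ Hit a x.1 x.2}
  have hP : P.Finite := by
    have h1 : P ⊆ ⋃ r ∈ (T : Set ℕ), (fun v : HeightOneSpectrum (𝓞 F) => (v, r)) ''
        {v | Hit a v r} := by
      rintro ⟨v, r⟩ ⟨hr, hv⟩
      exact Set.mem_biUnion hr ⟨v, hv, rfl⟩
    refine (Set.Finite.biUnion T.finite_toSet fun r hr => Set.Finite.image _ ?_).subset h1
    have h2 := hT hr
    exact hfin r h2.1 h2.2.1 h2.2.2.1
  let e := hP.toFinset.equivFin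
  let x : Fin hP.toFinset.card → HeightOneSpectrum (𝓞 F) × ℕ := fun i => (e.symm i).1
  have hx : ∀ i, x i ∈ P := fun i => (hP.mem_toFinset).1 (e.symm i).2
  have hxs : ∀ y ∈ P, ∃ i, x i = y := by
    intro y hy
    refine ⟨e ⟨y, hP.mem_toFinset.2 hy⟩, ?_⟩
    show (e.symm (e ⟨y, _⟩)).1 = y
    rw [Equiv.symm_apply_apply]
  have hf : ∀ i, ∃ f : ℕ, 0 < f ∧ Ideal.absNorm (x i).1.asIdeal = resChar (x i).1 ^ f := by
    intro i
    obtain ⟨-, -, n, hn, hn'⟩ := resChar_spec (x i).1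
    exact ⟨n, Nat.pos_of_ne_zero hn, hn'⟩
  choose f hf0 hf using hf
  obtain ⟨s, hs, hs'⟩ := hC (F.fixingSubgroup.index.factorial) (Nat.factorial_pos _)
    hP.toFinset.card (fun i => resChar (x i).1) f (fun i => (x i).2)
    (fun i => (resChar_spec (x i).1).1) (fun i => (hT (hx i).1).1) (by
      intro i h
      refine (hT (hx i).1).2.2.2 ⟨(x i).1, ?_, (hx i).2⟩
      have h1 := (resChar_spec (x i).1).2.1
      have h2 : resChar (x i).1 = (x i).2 := h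
      rwa [h2] at h1) hf0
  choose m hm using fun i => hA E₁ E₂ hE₂ F a ha hopen (x i).1 (x i).2 (hT (hx i).1).1 (hx i).2
    (s i) (hs i)
  obtain ⟨Bη, hBη, hη⟩ := eta_all hT3 hE₂ _ F rfl a ha hopen
  obtain ⟨l, hl, hlB, hldvd, hls, hno⟩ := hs' m (Bη ∪ {2} ∪ T)
    ((hBη.union (Set.finite_singleton _)).union T.finite_toSet)
  have hlf : Fact l.Prime := ⟨hl⟩
  have hl1 : l ∉ Bη := fun h => hlB (Or.inl (Or.inl h))
  have hl2 : l ≠ 2 := fun h => hlB (Or.inl (Or.inr h))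
  have hlT : l ∉ T := fun h => hlB (Or.inr h)
  obtain ⟨r₂, hr₂, v, hv, hhit⟩ := hD E₁ E₂ hE₂ F a ha hopen l hl2 (hη l hl1 hldvd) T
    (fun r hr => ⟨(hT hr).1, fun h => hlT (h ▸ hr)⟩) (by omega)
  obtain ⟨i, hi⟩ := hxs (v, r₂) ⟨hr₂, hhit⟩
  have h1 : (x i).1 = v := by rw [hi]
  have h2 : (x i).2 = r₂ := by rw [hi]
  apply hno i
  obtain ⟨y, hy⟩ := hm i l hl2 (by rw [h2]; exact fun h => hlT (h ▸ hr₂)) (hls i)
    (by rw [h1]; exact hv)
  refine ⟨y, ?_⟩
  rw [← hy, hf i, Nat.cast_pow]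

/-- The goal from the blocks. -/
theorem goal_of (hA : PropA.{u, v}) (hB : PropB.{u, v}) (hC : PropC) (hD : PropD.{u, v})
    (hT3 : PropT3.{v}) (hF : PropF.{u, v}) : PropGOAL.{u, v} := by
  intro E₁ E₂ _ _ _ _ _ _ _ hE₂ F
  suffices h : ∀ (n : ℕ) (F : IntermediateField ℚ E₁) [NumberField F],
      F.fixingSubgroup.index = n → ∀ (a : (E₁ ≃ₐ[F] E₁) →* (E₂ ≃ₐ[ℚ] E₂)), Continuous a →
      IsOpen (Set.range a) → ∃ j : E₂ →+* E₁, ∀ (g : E₁ ≃ₐ[F] E₁) (x : E₂),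
        g (j x) = j ((a g) x) by
    intro hNF a ha hopen
    exact h _ F rfl a ha hopen
  intro n
  induction n using Nat.strong_induction_on with
  | _ n ih =>
    intro F hNF hn a ha hopen
    by_cases hmax : ∀ g b, Rel a g b → g ∈ F.fixingSubgroup
    · exact hF E₁ E₂ hE₂ F a ha hopen (matched hA hB hC hD hT3 hE₂ F a ha hopen hmax)
    · push Not at hmax
      obtain ⟨g, b, hrel, hg⟩ := hmax
      obtain ⟨F₀, hlt, a₀, ha₀, hopen₀, hext⟩ := H157.propEXT E₁ E₂ hE₂ F a ha hopen g b hg hrel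
      have hNF : NumberField F₀ := numberField_le hlt.le
      have hgal : IsGalois ℚ E₁ := H157.isGalois_closed
      have hle : F.fixingSubgroup ≤ F₀.fixingSubgroup :=
        IntermediateField.fixingSubgroup_antitone hlt.le
      have hne : F.fixingSubgroup ≠ F₀.fixingSubgroup := by
        intro h
        have h1 := congrArg IntermediateField.fixedField h
        rw [InfiniteGalois.fixedField_fixingSubgroup, InfiniteGalois.fixedField_fixingSubgroup]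
          at h1
        exact hlt.ne h1.symm
      have hidx : F₀.fixingSubgroup.index < n := by
        rw [← hn]
        have : F.fixingSubgroup.FiniteIndex := ⟨index_ne_zero_of_open _ (isOpen_fix F)⟩
        exact Subgroup.index_strictAnti (lt_of_le_of_ne hle hne)
      obtain ⟨j, hj⟩ := ih _ hidx F₀ rfl a₀ ha₀ hopen₀
      refine ⟨j, fun x t => ?_⟩
      obtain ⟨y, hy⟩ := exists_lower hlt.le x
      rw [← hy, hj, hext x y hy]

end Vale.Agent.P024.ALL
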